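import Vale.Agent.P106.H731.Node

/-! # P106 / H731 : the block [L], `StL` from `StREP` and `StWI` (helper731; port of P122/AN275) -/

open MeasureTheory Complex Set
open Vale.Agent.P122.C2 (Z2 fw fn par kids Cap)
open Vale.Agent.P106.W (Nd s0 tl)
open scoped ENNReal NNReal FourierTransform

set_option linter.all false

namespace Vale.Agent.P106.H731

open Vale.Agent.P106.AN

theorem vol_pl (h n i : ℕ) : (2:ℝ) ^ (h * n) * 2 ^ (i * n) * 2 ^ (i * n) * 2 ^ (2 * i * n) = 2 ^ (h * n + 4 * i * n) := by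
  rw [← pow_add, ← pow_add, ← pow_add]; congr 1; ring

theorem ex_succ {K M i : ℕ} (hi : i < K) : ex K M i = ex K M (i + 1) + 10 := by
  unfold ex; omega

theorem am2_anti {M M' : ℕ} (h : M ≤ M') (hh n i : ℕ) (S : Nd) (f : E4 → ℂ) : am2 M' hh n i S f ≤ am2 M hh n i S f := by
  unfold am2 wN
  gcongr with z
  exact wg_anti h (by positivity) (by positivity) (by positivity) (by positivity) _ _

/-- [L] for one level -/
theorem lem_L (hREP : StREP) (hWI : StWI) (M : ℕ) (C0 : ℝ) (hC0 : 1 ≤ C0) : ∃ C : ℝ, 0 ≤ C ∧ ∀ (K h n : ℕ) (ρ : ℝ)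
    (g : Z2 → E4 → ℂ), 1 ≤ h → Dat C0 (h * n) K n ρ g → ∀ i < K, ∀ (S : Nd) (τ' : Z2), τ' ∈ kids n S.b.τ →
      am2 (M + 5) h n i S (pie K n g (i + 1) τ') ≤
        ENNReal.ofReal C * am2 M h n (i + 1) ((S.sg n).ch n h i τ') (pie K n g (i + 1) τ') := by
  have hcD : 0 < cD C0 := lt_of_lt_of_le one_pos (cD_pos hC0)
  obtain ⟨C3, hC3, h3⟩ := transfer hREP hWI M (cD C0) 9 hcD (by norm_num)
  refine ⟨C3, hC3, ?_⟩
  intro K h n ρ g hh hD i hi S τ' hk
  obtain ⟨ξ0, hξ0⟩ := dual_ex hD hC0 le_rfl (show i + 1 ≤ K from hi) τ'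
  rw [← inv_gs hD.int]
  have := h3 0 (2 ^ (h * n)) (2 ^ ((i + 1) * n)) (2 ^ ((i + 1) * n)) (2 ^ (2 * (i + 1) * n)) 0 (2 ^ (h * n)) (2 ^ (i * n))
    (2 ^ (i * n)) (2 ^ (2 * i * n)) (s0 n i S.b.τ) (slp n (i + 1) τ') (bp h n (i + 1) ((S.sg n).ch n h i τ')) (bp h n i S) ξ0
    (gs K n g (i + 1) τ') (by positivity) (by positivity) (by positivity) (by positivity) (by positivity) (by positivity)
    (by positivity) (by positivity) (integrable_gs hD.int _ _) hξ0 (fun x => child_node hh S hk x)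
  unfold am2
  rw [vol_pl, vol_pl] at this
  calc ENNReal.ofReal (((2:ℝ) ^ (h * n + 4 * i * n))⁻¹) * ∫⁻ z, ‖𝓕⁻ (gs K n g (i + 1) τ') z‖ₑ ^ 2 * wN (M + 5) h n i S z
      ≤ ENNReal.ofReal (((2:ℝ) ^ (h * n + 4 * i * n))⁻¹) * (ENNReal.ofReal (C3 * 2 ^ (h * n + 4 * i * n) *
          (2 ^ (h * n + 4 * (i + 1) * n))⁻¹) *
          ∫⁻ y, ‖𝓕⁻ (gs K n g (i + 1) τ') y‖ₑ ^ 2 * wN M h n (i + 1) ((S.sg n).ch n h i τ') y) :=
        mul_le_mul' le_rfl this
    _ = _ := by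
        rw [← mul_assoc, ← mul_assoc, ← ENNReal.ofReal_mul (by positivity), ← ENNReal.ofReal_mul hC3]
        congr 2
        have : (2:ℝ) ^ (h * n + 4 * i * n) ≠ 0 := by positivity
        field_simp

/-- **[L] : `StL`** from `StREP` and `StWI` -/
theorem stL_of (hREP : StREP) (hWI : StWI) : StL := by
  intro K h M C0 hh hM hC0
  choose C hC H using fun i : ℕ => lem_L hREP hWI (ex K M (i + 1)) C0 hC0
  refine ⟨∑ i ∈ Finset.range K, C i, Finset.sum_nonneg fun i _ => hC i, ?_⟩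
  intro n ρ g hD i hi S τ' hc hk
  have h1 := H i K h n ρ g hh hD i hi S τ' hk
  refine (am2_anti (by rw [ex_succ hi]; omega) h n i S _).trans (h1.trans ?_)
  gcongr
  exact Finset.single_le_sum (f := C) (fun j _ => hC j) (Finset.mem_range.2 hi)

end Vale.Agent.P106.H731
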