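import Vale.Agent.P106.AN.Frq

/-! # P106 / H731 : geometry of the nodes (helper731; port of P122/AN275/Node, with the null line) -/

open MeasureTheory Complex Set
open Vale.Agent.P122.C2 (Z2 fw fn par kids Cap)
open Vale.Agent.P106.W (Nd s0 tl)
open scoped ENNReal NNReal FourierTransform

set_option linter.all false

namespace Vale.Agent.P106.H731

open Vale.Agent.P106.AN

theorem sg_tau {n : ℕ} {S σ : Nd} (h : S.sg n = σ) : S.b.τ = σ.b.τ := by rw [← h]; rfl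
theorem sg_T {n : ℕ} {S σ : Nd} (h : S.sg n = σ) : S.b.T = σ.b.T := by rw [← h]; rfl
theorem sg_w {n : ℕ} {S σ : Nd} (h : S.sg n = σ) : S.w = σ.w := by rw [← h]; rfl

/-- index of a child in its cap -/
theorem kid_m {n : ℕ} {τ τ' : Z2} (h : τ' ∈ kids n τ) (k : Fin 2) :
    0 ≤ (τ' k : ℝ) - 2 ^ n * τ k ∧ (τ' k : ℝ) - 2 ^ n * τ k ≤ 2 ^ n := by
  unfold kids at h
  rw [Fintype.mem_piFinset] at h
  have hk := Finset.mem_Ico.1 (h k)
  have h1 : (2:ℝ) ^ n * τ k ≤ τ' k := by exact_mod_cast hk.1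
  have h2 : (τ' k : ℝ) ≤ 2 ^ n * (τ k + 1) := by exact_mod_cast hk.2.le
  constructor <;> linarith

/-- the difference of the slopes -/
theorem kid_slp {n i : ℕ} {τ τ' : Z2} (k : Fin 2) :
    s0 n (i + 1) τ' k - s0 n i τ k = ((τ' k : ℝ) - 2 ^ n * τ k) / 2 ^ ((i + 1) * n) := by
  unfold s0
  have hpow : (2:ℝ) ^ ((i + 1) * n) = 2 ^ (i * n) * 2 ^ n := by rw [← pow_add]; congr 1; ring
  have hn : (0:ℝ) < 2 ^ n := by positivity
  have hi : (0:ℝ) < 2 ^ (i * n) := by positivity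
  rw [hpow]; field_simp

theorem kid_slp_le {n i : ℕ} {τ τ' : Z2} (h : τ' ∈ kids n τ) (k : Fin 2) :
    |s0 n (i + 1) τ' k - s0 n i τ k| ≤ 1 / 2 ^ (i * n) := by
  obtain ⟨h1, h2⟩ := kid_m h k
  have hpow : (2:ℝ) ^ ((i + 1) * n) = 2 ^ (i * n) * 2 ^ n := by rw [← pow_add]; congr 1; ring
  rw [kid_slp, abs_of_nonneg (div_nonneg h1 (by positivity)), hpow, div_le_div_iff₀ (by positivity) (by positivity), one_mul]
  have hi : (0:ℝ) < 2 ^ (i * n) := by positivity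
  nlinarith

/-- null coordinate of the child slope at a point of the base of the piece `σ` -/
theorem nl_base {h n i : ℕ} (hh : 1 ≤ h) (σ : Nd) {τ' : Z2} (hk : τ' ∈ kids n σ.b.τ) (p : E4)
    (hp0 : |p 0 - 2 ^ ((i + 1) * n) * (σ.b.o 0 : ℝ)| ≤ 2 ^ ((i + 1) * n))
    (hp1 : |p 1 - 2 ^ ((i + 1) * n) * (σ.b.o 1 : ℝ)| ≤ 2 ^ ((i + 1) * n))
    (hp2 : p 2 = 2 ^ (2 * i * n) * (σ.b.T : ℝ))
    (hn : |nl (s0 n i σ.b.τ) p - 2 ^ (h * n) * (σ.w : ℝ)| ≤ 2 ^ (h * n)) :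
    |nl (s0 n (i + 1) τ') p - 2 ^ (h * n) * ((σ.w : ℝ) + tl n h σ.b τ')| ≤ 3 * 2 ^ (h * n) := by
  set a : ℝ := 2 ^ ((i + 1) * n) with ha
  have ha0 : 0 < a := by positivity
  set s := s0 n i σ.b.τ with hs
  set s' := s0 n (i + 1) τ' with hs'
  set m : Fin 2 → ℝ := fun k => (τ' k : ℝ) - 2 ^ n * (σ.b.τ k : ℝ) with hm
  have hm0 : ∀ k, 0 ≤ m k := fun k => (kid_m hk k).1
  have hm1 : ∀ k, m k ≤ 2 ^ n := fun k => (kid_m hk k).2
  have hδ : ∀ k, s' k - s k = m k / a := fun k => kid_slp k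
  have hH : (0:ℝ) < 2 ^ (h * n) := by positivity
  have htl : 2 ^ (h * n) * tl n h σ.b τ' =
      (-((σ.b.o 0 : ℝ) - (σ.b.T : ℝ) * (σ.b.τ 0 : ℝ) / 2 ^ n) * m 0 + (σ.b.T : ℝ) * m 0 ^ 2 / 2 ^ (2 * n + 1)) +
      (-((σ.b.o 1 : ℝ) - (σ.b.T : ℝ) * (σ.b.τ 1 : ℝ) / 2 ^ n) * m 1 + (σ.b.T : ℝ) * m 1 ^ 2 / 2 ^ (2 * n + 1)) := by
    unfold tl
    rw [Fin.sum_univ_two, mul_div_cancel₀ _ hH.ne']
  have hn0 : (2:ℝ) ^ n ≠ 0 := by positivity
  have hi0 : (2:ℝ) ^ (i * n) ≠ 0 := by positivity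
  have ea : a = 2 ^ (i * n) * 2 ^ n := by rw [ha, ← pow_add]; congr 1; ring
  have eb : (2:ℝ) ^ (2 * i * n) = 2 ^ (i * n) * 2 ^ (i * n) := by rw [← pow_add]; congr 1; ring
  have e2n : (2:ℝ) ^ (2 * n + 1) = 2 * (2 ^ n * 2 ^ n) := by rw [← pow_add, pow_succ]; rw [show n + n = 2 * n by ring]; ring
  have hsk : ∀ k, s k = (σ.b.τ k : ℝ) / 2 ^ (i * n) := fun k => rfl
  have key : nl s' p - 2 ^ (h * n) * ((σ.w : ℝ) + tl n h σ.b τ') =
      (nl s p - 2 ^ (h * n) * (σ.w : ℝ)) - (m 0 / a * (p 0 - a * σ.b.o 0) + m 1 / a * (p 1 - a * σ.b.o 1)) := by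
    have e1 : nl s' p = nl s p - ((s' 0 - s 0) * (p 0 - s 0 * p 2) + (s' 1 - s 1) * (p 1 - s 1 * p 2)) +
        ((s' 0 - s 0) ^ 2 + (s' 1 - s 1) ^ 2) / 2 * p 2 := by
      unfold nl; ring
    rw [e1, mul_add, htl, hδ 0, hδ 1, hp2, hsk 0, hsk 1, eb, ea, e2n]
    field_simp
    ring
  rw [key]
  have hb : ∀ (k : Fin 2) (e : ℝ), |e| ≤ a → |m k / a * e| ≤ 2 ^ n := by
    intro k e he
    rw [abs_mul, abs_of_nonneg (div_nonneg (hm0 k) ha0.le), div_mul_eq_mul_div, div_le_iff₀ ha0]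
    exact mul_le_mul (hm1 k) he (abs_nonneg _) (by positivity)
  have h2n : (2:ℝ) ^ n ≤ 2 ^ (h * n) := pow_le_pow_right₀ (by norm_num) (Nat.le_mul_of_pos_left n hh)
  have b0 := hb 0 _ hp0
  have b1 := hb 1 _ hp1
  refine (abs_sub _ _).trans ?_
  have := abs_add_le (m 0 / a * (p 0 - a * σ.b.o 0)) (m 1 / a * (p 1 - a * σ.b.o 1))
  linarith

/-- the base point of the child plank is close to every point of the base of the piece `σ` -/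
theorem child_base {h n i : ℕ} (hh : 1 ≤ h) (σ : Nd) {τ' : Z2} (hk : τ' ∈ kids n σ.b.τ) (p : E4)
    (hp0 : |p 0 - 2 ^ ((i + 1) * n) * (σ.b.o 0 : ℝ)| ≤ 2 ^ ((i + 1) * n))
    (hp1 : |p 1 - 2 ^ ((i + 1) * n) * (σ.b.o 1 : ℝ)| ≤ 2 ^ ((i + 1) * n))
    (hp2 : p 2 = 2 ^ (2 * i * n) * (σ.b.T : ℝ))
    (hn : |nl (s0 n i σ.b.τ) p - 2 ^ (h * n) * (σ.w : ℝ)| ≤ 2 ^ (h * n)) :
    gau 0 (2 ^ (h * n)) (2 ^ ((i + 1) * n)) (2 ^ ((i + 1) * n)) (2 ^ (2 * (i + 1) * n)) (s0 n (i + 1) τ')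
      (p - bp h n (i + 1) (σ.ch n h i τ')) ≤ 9 := by
  have hnb := nl_base hh σ hk p hp0 hp1 hp2 hn
  set a : ℝ := 2 ^ ((i + 1) * n) with ha
  have ha0 : 0 < a := by positivity
  set b : ℝ := 2 ^ (2 * i * n) with hb
  have hb0 : 0 < b := by positivity
  have hH : (0:ℝ) < 2 ^ (h * n) := by positivity
  have hd : (2:ℝ) ^ (2 * (i + 1) * n) = b * 2 ^ (2 * n) := by
    rw [hb, ← pow_add]; congr 1; ring
  have h2n : (0:ℝ) < 2 ^ (2 * n) := by positivity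
  set s' := s0 n (i + 1) τ' with hs'
  set q := bp h n (i + 1) (σ.ch n h i τ') with hq
  set r : ℤ := σ.b.T % 2 ^ (2 * n) with hr
  have hr0 : 0 ≤ r := Int.emod_nonneg _ (by positivity)
  have hr1 : r < 2 ^ (2 * n) := Int.emod_lt_of_pos _ (by positivity)
  have hr0' : (0:ℝ) ≤ r := by exact_mod_cast hr0
  have hr1' : (r:ℝ) ≤ 2 ^ (2 * n) := by exact_mod_cast hr1.le
  have hT : (σ.b.T : ℝ) = 2 ^ (2 * n) * ((σ.b.T / 2 ^ (2 * n) : ℤ) : ℝ) + r := by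
    have := Int.mul_ediv_add_emod σ.b.T (2 ^ (2 * n))
    exact_mod_cast this.symm
  set x : Fin 2 → ℝ := fun k => (σ.b.o k : ℝ) - (r : ℝ) * 2 ^ (2 * i * n) * s' k / 2 ^ ((i + 1) * n) with hx
  have hxa : ∀ k, a * x k = a * σ.b.o k - r * b * s' k := by
    intro k
    simp only [hx]
    rw [← ha, ← hb]
    field_simp
  have hfr : ∀ k, |x k - ⌊x k⌋| ≤ 1 := by
    intro k
    rw [abs_of_nonneg (sub_nonneg.2 (Int.floor_le _))]
    linarith [Int.lt_floor_add_one (x k)]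
  have hz2 : (p - q) 2 = b * r := by
    have e : (p - q) 2 = p 2 - 2 ^ (2 * (i + 1) * n) * (((σ.b.T / 2 ^ (2 * n) : ℤ)) : ℝ) := rfl
    rw [e, hp2, hd, hT]; ring
  have hdv0 : |dv s' (p - q) 0| / a ≤ 2 := by
    have e : dv s' (p - q) 0 = (p 0 - a * σ.b.o 0) + a * (x 0 - ⌊x 0⌋) := by
      have h0 : dv s' (p - q) 0 = (p 0 - a * (⌊x 0⌋ : ℝ)) - s' 0 * (b * r) := by rw [← hz2]; rfl
      rw [h0]
      have := hxa 0
      linarith
    rw [e, div_le_iff₀ ha0]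
    refine (abs_add_le _ _).trans ?_
    rw [abs_mul, abs_of_pos ha0]
    have h2 := hfr 0
    nlinarith
  have hdv1 : |dv s' (p - q) 1| / a ≤ 2 := by
    have e : dv s' (p - q) 1 = (p 1 - a * σ.b.o 1) + a * (x 1 - ⌊x 1⌋) := by
      have h0 : dv s' (p - q) 1 = (p 1 - a * (⌊x 1⌋ : ℝ)) - s' 1 * (b * r) := by rw [← hz2]; rfl
      rw [h0]
      have := hxa 1
      linarith
    rw [e, div_le_iff₀ ha0]
    refine (abs_add_le _ _).trans ?_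
    rw [abs_mul, abs_of_pos ha0]
    have h2 := hfr 1
    nlinarith
  have hnl : |nl s' (p - q)| / 2 ^ (h * n) ≤ 4 := by
    rw [div_le_iff₀ hH, nl_sub]
    have e : nl s' q = 2 ^ (h * n) * ((⌊(σ.w : ℝ) + tl n h σ.b τ'⌋ : ℤ) : ℝ) := nl_pt _ _ _ _ _ _
    rw [e]
    have e2 : nl s' p - 2 ^ (h * n) * ((⌊(σ.w : ℝ) + tl n h σ.b τ'⌋ : ℤ) : ℝ) =
        (nl s' p - 2 ^ (h * n) * ((σ.w : ℝ) + tl n h σ.b τ')) +
        2 ^ (h * n) * (((σ.w : ℝ) + tl n h σ.b τ') - ⌊(σ.w : ℝ) + tl n h σ.b τ'⌋) := by ring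
    rw [e2]
    refine (abs_add_le _ _).trans ?_
    have h3 : |2 ^ (h * n) * (((σ.w : ℝ) + tl n h σ.b τ') - ⌊(σ.w : ℝ) + tl n h σ.b τ'⌋)| ≤ 2 ^ (h * n) := by
      rw [abs_mul, abs_of_pos hH, abs_of_nonneg (sub_nonneg.2 (Int.floor_le _))]
      have := Int.lt_floor_add_one ((σ.w : ℝ) + tl n h σ.b τ')
      nlinarith
    linarith
  unfold gau
  rw [fw_zero_frame, fn_zero_frame, hz2]
  have h3 : |b * (r:ℝ)| / 2 ^ (2 * (i + 1) * n) ≤ 1 := by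
    rw [abs_of_nonneg (by positivity), hd, div_le_one (by positivity)]
    gcongr
  linarith

/-- comparison of the gauges, slopes of a cap and of its child, common centre -/
theorem kid_gau {h n i : ℕ} (hh : 1 ≤ h) {τ τ' : Z2} (hk : τ' ∈ kids n τ) (θ R1 R2 : ℝ) (h1 : 0 < R1) (h2 : 0 < R2)
    (h1' : R1 ≤ 2 ^ ((i + 1) * n)) (h2' : R2 ≤ 2 ^ ((i + 1) * n)) (z : E4) :
    gau 0 (2 ^ (h * n)) (2 ^ ((i + 1) * n)) (2 ^ ((i + 1) * n)) (2 ^ (2 * (i + 1) * n)) (s0 n (i + 1) τ') z ≤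
      4 * gau θ (2 ^ (h * n)) R1 R2 (2 ^ (2 * i * n)) (s0 n i τ) z := by
  set a : ℝ := 2 ^ ((i + 1) * n) with ha
  have ha0 : 0 < a := by positivity
  set b : ℝ := 2 ^ (2 * i * n) with hbd
  have hb0 : 0 < b := by positivity
  set H : ℝ := 2 ^ (h * n) with hH
  have hH0 : 0 < H := by positivity
  have hH1 : 1 ≤ H := one_le_pow₀ (by norm_num)
  set c : ℝ := 2 ^ (i * n) with hc
  have hc0 : 0 < c := by positivity
  set s := s0 n i τ with hs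
  set s' := s0 n (i + 1) τ' with hs'
  have hδ : ∀ k, |s' k - s k| ≤ 1 / c := fun k => kid_slp_le hk k
  unfold gau
  rw [fw_zero_frame, fn_zero_frame]
  set d := dv s z with hd
  have hz : 0 ≤ |z 2| := abs_nonneg _
  have hd0 := abs_zero_le θ d
  have hd1 := abs_one_le θ d
  have hpow : b ≤ c * a := by
    rw [hbd, hc, ha, ← pow_add]
    apply pow_le_pow_right₀ (by norm_num)
    nlinarith
  have hbc : b = c * c := by rw [hbd, hc, ← pow_add]; congr 1; ring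
  have haH : a ≤ c * H := by
    rw [ha, hc, hH, ← pow_add]
    apply pow_le_pow_right₀ (by norm_num)
    nlinarith
  have u2 : |z 2| / 2 ^ (2 * (i + 1) * n) ≤ |z 2| / b := by
    gcongr
    rw [hbd]
    apply pow_le_pow_right₀ (by norm_num)
    nlinarith
  have t1 : |z 2| * (1 / c) / a ≤ |z 2| / b := by
    rw [mul_one_div, div_div]
    gcongr
  have t3 : |fw θ d| / a ≤ |fw θ d| / R1 := by gcongr
  have t4 : |fn θ d| / a ≤ |fn θ d| / R2 := by gcongr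
  have uk : ∀ k : Fin 2, |d k| ≤ |fw θ d| + |fn θ d| → |dv s' z k| / a ≤ |fw θ d| / R1 + |fn θ d| / R2 + |z 2| / b := by
    intro k hdk
    have e1 : dv s' z k = d k - z 2 * (s' k - s k) := by
      rw [hd]
      unfold dv
      fin_cases k <;> simp <;> ring
    have e2 : |dv s' z k| ≤ (|fw θ d| + |fn θ d|) + |z 2| * (1 / c) := by
      rw [e1]
      refine (abs_sub _ _).trans (add_le_add hdk ?_)
      rw [abs_mul]
      exact mul_le_mul_of_nonneg_left (hδ k) (abs_nonneg _)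
    calc |dv s' z k| / a ≤ ((|fw θ d| + |fn θ d|) + |z 2| * (1 / c)) / a := div_le_div_of_nonneg_right e2 ha0.le
      _ = |fw θ d| / a + |fn θ d| / a + |z 2| * (1 / c) / a := by ring
      _ ≤ _ := by linarith
  have un : |nl s' z| / H ≤ |nl s z| / H + 2 * (|fw θ d| / R1 + |fn θ d| / R2) + |z 2| / b := by
    have e1 : nl s' z = nl s z - ((s' 0 - s 0) * d 0 + (s' 1 - s 1) * d 1) + ((s' 0 - s 0) ^ 2 + (s' 1 - s 1) ^ 2) / 2 * z 2 := by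
      rw [hd, dv_zero, dv_one]
      unfold nl
      ring
    have m0 : |(s' 0 - s 0) * d 0| ≤ 1 / c * (|fw θ d| + |fn θ d|) := by
      rw [abs_mul]; exact mul_le_mul (hδ 0) hd0 (abs_nonneg _) (by positivity)
    have m1 : |(s' 1 - s 1) * d 1| ≤ 1 / c * (|fw θ d| + |fn θ d|) := by
      rw [abs_mul]; exact mul_le_mul (hδ 1) hd1 (abs_nonneg _) (by positivity)
    have q0 : (s' 0 - s 0) ^ 2 ≤ 1 / b := by
      rw [← sq_abs, hbc]
      calc |s' 0 - s 0| ^ 2 ≤ (1 / c) ^ 2 := pow_le_pow_left₀ (abs_nonneg _) (hδ 0) 2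
        _ = 1 / (c * c) := by rw [one_div_pow, sq]
    have q1 : (s' 1 - s 1) ^ 2 ≤ 1 / b := by
      rw [← sq_abs, hbc]
      calc |s' 1 - s 1| ^ 2 ≤ (1 / c) ^ 2 := pow_le_pow_left₀ (abs_nonneg _) (hδ 1) 2
        _ = 1 / (c * c) := by rw [one_div_pow, sq]
    have m2 : |((s' 0 - s 0) ^ 2 + (s' 1 - s 1) ^ 2) / 2 * z 2| ≤ 1 / b * |z 2| := by
      rw [abs_mul, abs_of_nonneg (by positivity : (0:ℝ) ≤ ((s' 0 - s 0) ^ 2 + (s' 1 - s 1) ^ 2) / 2)]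
      exact mul_le_mul_of_nonneg_right (by linarith) (abs_nonneg _)
    have e2 : |nl s' z| ≤ |nl s z| + 2 * (1 / c * (|fw θ d| + |fn θ d|)) + 1 / b * |z 2| := by
      rw [e1]
      refine (abs_add_le _ _).trans (add_le_add ((abs_sub _ _).trans (add_le_add le_rfl ?_)) m2)
      have := abs_add_le ((s' 0 - s 0) * d 0) ((s' 1 - s 1) * d 1)
      linarith
    have e3 : 1 / c * (|fw θ d| + |fn θ d|) / H ≤ |fw θ d| / R1 + |fn θ d| / R2 := by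
      have g1 : |fw θ d| / (c * H) ≤ |fw θ d| / R1 := div_le_div_of_nonneg_left (abs_nonneg _) h1 (h1'.trans haH)
      have g2 : |fn θ d| / (c * H) ≤ |fn θ d| / R2 := div_le_div_of_nonneg_left (abs_nonneg _) h2 (h2'.trans haH)
      have e : 1 / c * (|fw θ d| + |fn θ d|) / H = |fw θ d| / (c * H) + |fn θ d| / (c * H) := by
        field_simp
      rw [e]; exact add_le_add g1 g2
    have e4 : 1 / b * |z 2| / H ≤ |z 2| / b := by
      have e : 1 / b * |z 2| / H = |z 2| / b / H := by ring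
      rw [e]
      exact div_le_self (by positivity) hH1
    calc |nl s' z| / H ≤ (|nl s z| + 2 * (1 / c * (|fw θ d| + |fn θ d|)) + 1 / b * |z 2|) / H :=
          div_le_div_of_nonneg_right e2 hH0.le
      _ = |nl s z| / H + 2 * (1 / c * (|fw θ d| + |fn θ d|) / H) + 1 / b * |z 2| / H := by ring
      _ ≤ _ := by linarith
  have u0 := uk 0 hd0
  have u1 := uk 1 hd1
  have p0 : 0 ≤ |nl s z| / H := by positivity
  have p1 : 0 ≤ |fw θ d| / R1 := by positivity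
  have p2 : 0 ≤ |fn θ d| / R2 := by positivity
  have p3 : 0 ≤ |z 2| / b := by positivity
  linarith

/-- **the gauge of the child plank is controlled by the gauge of any box of the piece `σ`** -/
theorem child_gau {h n i : ℕ} (hh : 1 ≤ h) (σ : Nd) {τ' : Z2} (hk : τ' ∈ kids n σ.b.τ) (θ R1 R2 : ℝ) (h1 : 0 < R1) (h2 : 0 < R2)
    (h1' : R1 ≤ 2 ^ ((i + 1) * n)) (h2' : R2 ≤ 2 ^ ((i + 1) * n)) (p : E4)
    (hp0 : |p 0 - 2 ^ ((i + 1) * n) * (σ.b.o 0 : ℝ)| ≤ 2 ^ ((i + 1) * n))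
    (hp1 : |p 1 - 2 ^ ((i + 1) * n) * (σ.b.o 1 : ℝ)| ≤ 2 ^ ((i + 1) * n))
    (hp2 : p 2 = 2 ^ (2 * i * n) * (σ.b.T : ℝ))
    (hn : |nl (s0 n i σ.b.τ) p - 2 ^ (h * n) * (σ.w : ℝ)| ≤ 2 ^ (h * n)) (x : E4) :
    gau 0 (2 ^ (h * n)) (2 ^ ((i + 1) * n)) (2 ^ ((i + 1) * n)) (2 ^ (2 * (i + 1) * n)) (s0 n (i + 1) τ')
      (x - bp h n (i + 1) (σ.ch n h i τ')) ≤
      9 * (1 + gau θ (2 ^ (h * n)) R1 R2 (2 ^ (2 * i * n)) (s0 n i σ.b.τ) (x - p)) := by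
  have hb := child_base hh σ hk p hp0 hp1 hp2 hn
  have key := kid_gau hh hk θ R1 R2 h1 h2 h1' h2' (x - p)
  have e : x - bp h n (i + 1) (σ.ch n h i τ') = (x - p) + (p - bp h n (i + 1) (σ.ch n h i τ')) := by abel
  rw [e]
  refine (gau_add (by positivity) (by positivity) (by positivity) (by positivity) _ _ _).trans ?_
  have g0 := gau_nonneg (θ := θ) (ρ0 := 2 ^ (h * n)) (ρ3 := 2 ^ (2 * i * n)) (by positivity) h1 h2 (by positivity) (s0 n i σ.b.τ) (x - p)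
  linarith

/-! ### the base point of a plank is in the base of its piece -/

theorem o_near (n i : ℕ) (o : ℤ) : |(2:ℝ) ^ (i * n) * (o : ℝ) - 2 ^ ((i + 1) * n) * ((o / 2 ^ n : ℤ) : ℝ)| ≤ 2 ^ ((i + 1) * n) := by
  have hpow : (2:ℝ) ^ ((i + 1) * n) = 2 ^ (i * n) * 2 ^ n := by rw [← pow_add]; congr 1; ring
  have hm := Int.mul_ediv_add_emod o (2 ^ n)
  have h0 : 0 ≤ o % 2 ^ n := Int.emod_nonneg _ (by positivity)
  have h1 : o % 2 ^ n < 2 ^ n := Int.emod_lt_of_pos _ (by positivity)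
  have hm' : (o : ℝ) = 2 ^ n * ((o / 2 ^ n : ℤ) : ℝ) + ((o % 2 ^ n : ℤ) : ℝ) := by exact_mod_cast hm.symm
  have h0' : (0:ℝ) ≤ ((o % 2 ^ n : ℤ) : ℝ) := by exact_mod_cast h0
  have h1' : ((o % 2 ^ n : ℤ) : ℝ) ≤ 2 ^ n := by exact_mod_cast h1.le
  have e3 : (2:ℝ) ^ (i * n) * (o : ℝ) - 2 ^ ((i + 1) * n) * ((o / 2 ^ n : ℤ) : ℝ) =
      2 ^ (i * n) * ((o % 2 ^ n : ℤ) : ℝ) := by
    rw [hpow]
    linear_combination (2 ^ (i * n)) * hm'
  rw [e3, abs_of_nonneg (by positivity), hpow]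
  gcongr

theorem bp0 (h n i : ℕ) (S : Nd) : bp h n i S 0 = 2 ^ (i * n) * (S.b.o 0 : ℝ) := rfl
theorem bp1 (h n i : ℕ) (S : Nd) : bp h n i S 1 = 2 ^ (i * n) * (S.b.o 1 : ℝ) := rfl
theorem bp2 (h n i : ℕ) (S : Nd) : bp h n i S 2 = 2 ^ (2 * i * n) * (S.b.T : ℝ) := rfl
theorem nl_bp (h n i : ℕ) (S : Nd) : nl (s0 n i S.b.τ) (bp h n i S) = 2 ^ (h * n) * (S.w : ℝ) := nl_pt _ _ _ _ _ _

theorem bp_near0 {n : ℕ} {S σ : Nd} (hσ : S.sg n = σ) (h i : ℕ) :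
    |bp h n i S 0 - 2 ^ ((i + 1) * n) * (σ.b.o 0 : ℝ)| ≤ 2 ^ ((i + 1) * n) := by
  rw [bp0, ← hσ]
  exact o_near n i (S.b.o 0)

theorem bp_near1 {n : ℕ} {S σ : Nd} (hσ : S.sg n = σ) (h i : ℕ) :
    |bp h n i S 1 - 2 ^ ((i + 1) * n) * (σ.b.o 1 : ℝ)| ≤ 2 ^ ((i + 1) * n) := by
  rw [bp1, ← hσ]
  exact o_near n i (S.b.o 1)

theorem bp_near2 {n : ℕ} {S σ : Nd} (hσ : S.sg n = σ) (h i : ℕ) : bp h n i S 2 = 2 ^ (2 * i * n) * (σ.b.T : ℝ) := by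
  rw [bp2, ← hσ]; rfl

theorem bp_nearn {n : ℕ} {S σ : Nd} (hσ : S.sg n = σ) (h i : ℕ) :
    |nl (s0 n i σ.b.τ) (bp h n i S) - 2 ^ (h * n) * (σ.w : ℝ)| ≤ 2 ^ (h * n) := by
  rw [← sg_tau hσ, ← sg_w hσ, nl_bp, sub_self, abs_zero]
  positivity

/-- the case of the plank itself -/
theorem child_node {h n i : ℕ} (hh : 1 ≤ h) (S : Nd) {τ' : Z2} (hk : τ' ∈ kids n S.b.τ) (x : E4) :
    gau 0 (2 ^ (h * n)) (2 ^ ((i + 1) * n)) (2 ^ ((i + 1) * n)) (2 ^ (2 * (i + 1) * n)) (s0 n (i + 1) τ')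
      (x - bp h n (i + 1) ((S.sg n).ch n h i τ')) ≤
      9 * (1 + gau 0 (2 ^ (h * n)) (2 ^ (i * n)) (2 ^ (i * n)) (2 ^ (2 * i * n)) (s0 n i S.b.τ) (x - bp h n i S)) := by
  have hp : (2:ℝ) ^ (i * n) ≤ 2 ^ ((i + 1) * n) := pow_le_pow_right₀ (by norm_num) (Nat.mul_le_mul_right n (Nat.le_succ i))
  exact child_gau hh (S.sg n) hk 0 _ _ (by positivity) (by positivity) hp hp (bp h n i S) (bp_near0 rfl h i) (bp_near1 rfl h i)
    (bp_near2 rfl h i) (bp_nearn rfl h i) x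

end Vale.Agent.P106.H731
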